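import Vale.Agent.Lib.P052.Dim63Main
import Vale.Agent.Lib.P052.Basic

/-!
# Borsuk's partition problem: both results in one statement

(1) Borsuk's conjecture fails in dimension 63: a finite set of positive diameter in `ℝ^63` which
cannot be written as a union of 64 sets of smaller diameter.

(2) In every dimension `d`, Borsuk's conjecture holds for all sets of at most `d + 4` points, so a
counterexample in `ℝ^d` has at least `d + 5` points.
-/

namespace Vale.Agent.Results.P052.AllResults

theorem result :
    (∃ S : Set (EuclideanSpace ℝ (Fin 63)), S.Finite ∧ 0 < Metric.diam S ∧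
      ∀ P : Fin 64 → Set (EuclideanSpace ℝ (Fin 63)), (⋃ i, P i) = S →
        ∃ i, Metric.diam S ≤ Metric.diam (P i)) ∧
    (∀ (d : ℕ) (Y : Set (EuclideanSpace ℝ (Fin d))), Y.Finite → Y.ncard ≤ d + 4 →
      0 < Metric.diam Y →
      ∃ P : Fin (d + 1) → Set (EuclideanSpace ℝ (Fin d)),
        Y = ⋃ i, P i ∧ ∀ i, Metric.diam (P i) < Metric.diam Y) := by
  refine ⟨Vale.Agent.Lib.P052.Dim63.borsuk_fails_63, ?_⟩
  intro d Y hfin hcard hpos
  have h := Vale.Agent.Lib.P052.borsuk_few_points Y hfin
    (by rw [finrank_euclideanSpace_fin]; exact hcard) hpos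
  rw [finrank_euclideanSpace_fin] at h
  exact h

end Vale.Agent.Results.P052.AllResults
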