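import Vale.Agent.Lib.P052.Dim63Main

/-!
# Borsuk's conjecture fails in dimension 63

There is a finite set `S` of positive diameter in `ℝ^63` (321 points) such that, however `S` is
written as a union of 64 sets, one of the sets has diameter at least `diam S`.  So `S` needs at
least 65 > 63 + 1 pieces of smaller diameter.

The set: 320 points with integer coordinates and mutual squared distances 96 and 128 (they span
`ℝ^63`), together with one further point at squared distance 128 from 240 of them and closer to
the other 80.  No six of the 321 points are pairwise at squared distance less than 128, so 64
pieces of smaller diameter hold at most 320 points.  The distance table and the absence of such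
six-point subsets are checked by the kernel.
-/

namespace Vale.Agent.Results.P052.Dim63

theorem result : ∃ S : Set (EuclideanSpace ℝ (Fin 63)), S.Finite ∧ 0 < Metric.diam S ∧
    ∀ P : Fin 64 → Set (EuclideanSpace ℝ (Fin 63)), (⋃ i, P i) = S →
      ∃ i, Metric.diam S ≤ Metric.diam (P i) :=
  Vale.Agent.Lib.P052.Dim63.borsuk_fails_63

end Vale.Agent.Results.P052.Dim63
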