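import Vale.Agent.Lib.P052.Basic

/-- Borsuk's conjecture holds, in every dimension `d`, for all sets of at most `d + 4` points:
such a set (of positive diameter) is a union of `d + 1` subsets of strictly smaller diameter. -/
theorem Vale.Agent.Results.P052.FewPoints.result (d : ℕ) (Y : Set (EuclideanSpace ℝ (Fin d)))
    (hfin : Y.Finite) (hcard : Y.ncard ≤ d + 4) (hpos : 0 < Metric.diam Y) :
    ∃ P : Fin (d + 1) → Set (EuclideanSpace ℝ (Fin d)),
      Y = ⋃ i, P i ∧ ∀ i, Metric.diam (P i) < Metric.diam Y := by
  have h := Vale.Agent.Lib.P052.borsuk_few_points Y hfin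
    (by rw [finrank_euclideanSpace_fin]; exact hcard) hpos
  rw [finrank_euclideanSpace_fin] at h
  exact h
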